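import Vale.Agent.P254.Defs
import Vale.Agent.P248.Orth

/-!
P254 [Q6]: volume and covariance of a body invariant under coordinate reflections and
permutations.
-/

namespace Vale.Agent.P254

open MeasureTheory
open scoped ENNReal

namespace CovK

open Vale.Agent.P248 (orth sgn)

theorem posPart_eq {n : ℕ} (K : Set (Fin n → ℝ)) :
    posPart K = K ∩ orth (fun _ : Fin n => (1 : ℤˣ)) := by
  ext x
  simp [posPart, orth]

theorem me_sgn {n : ℕ} (s : Fin n → ℤˣ) :
    MeasurableEmbedding (sgn s : (Fin n → ℝ) → (Fin n → ℝ)) :=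
  (MeasurableEquiv.ofInvolutive (sgn s) (Vale.Agent.P248.Orth.sgn_invol s)
    (Vale.Agent.P248.Orth.measurable_sgn s)).measurableEmbedding

theorem pre_sgn {n : ℕ} {K : Set (Fin n → ℝ)}
    (hs : ∀ s : Fin n → ℤˣ, ∀ x ∈ K, (fun i => ((s i : ℤ) : ℝ) * x i) ∈ K) (s : Fin n → ℤˣ) :
    sgn s ⁻¹' K = K := by
  ext x
  constructor
  · intro hx
    have h := hs s _ hx
    have h2 : (fun i => ((s i : ℤ) : ℝ) * sgn s x i) = x := Vale.Agent.P248.Orth.sgn_invol s x
    rwa [h2] at h
  · intro hx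
    exact hs s x hx

/-- change of variables by a sign change -/
theorem int_sgn {n : ℕ} {K : Set (Fin n → ℝ)}
    (hs : ∀ s : Fin n → ℤˣ, ∀ x ∈ K, (fun i => ((s i : ℤ) : ℝ) * x i) ∈ K) (s : Fin n → ℤˣ)
    (f : (Fin n → ℝ) → ℝ) :
    ∫ x in K, f (sgn s x) = ∫ x in K, f x := by
  have h := (Vale.Agent.P248.Orth.preserving_sgn s).setIntegral_preimage_emb (me_sgn s) f K
  rwa [pre_sgn hs] at h

/-- change of variables by a permutation of the coordinates -/
theorem mp_perm {k : ℕ} (τ : Equiv.Perm (Fin k)) :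
    MeasurePreserving (fun x : Fin k → ℝ => x ∘ τ) volume volume ∧
      MeasurableEmbedding (fun x : Fin k → ℝ => x ∘ τ) := by
  have h2 : (fun x : Fin k → ℝ => x ∘ τ) =
      (MeasurableEquiv.piCongrLeft (fun _ : Fin k => ℝ) τ.symm) := by
    funext x j
    have := Equiv.piCongrLeft_apply_apply (fun _ : Fin k => ℝ) τ.symm x (τ j)
    simp only [Equiv.symm_apply_apply] at this
    exact this.symm
  rw [h2]
  exact ⟨volume_measurePreserving_piCongrLeft (fun _ : Fin k => ℝ) τ.symm,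
    MeasurableEquiv.measurableEmbedding _⟩

theorem pre_perm {n : ℕ} {K : Set (Fin n → ℝ)}
    (hp : ∀ π : Equiv.Perm (Fin n), ∀ x ∈ K, (x ∘ π) ∈ K) (π : Equiv.Perm (Fin n)) :
    (fun x : Fin n → ℝ => x ∘ π) ⁻¹' K = K := by
  ext x
  constructor
  · intro hx
    have h := hp π⁻¹ _ hx
    have h2 : ((fun x : Fin n → ℝ => x ∘ π) x) ∘ (π⁻¹ : Equiv.Perm (Fin n)) = x := by
      funext j
      simp
    rwa [h2] at h
  · intro hx
    exact hp π x hx

theorem int_perm {n : ℕ} {K : Set (Fin n → ℝ)}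
    (hp : ∀ π : Equiv.Perm (Fin n), ∀ x ∈ K, (x ∘ π) ∈ K) (π : Equiv.Perm (Fin n))
    (f : (Fin n → ℝ) → ℝ) :
    ∫ x in K, f (x ∘ π) = ∫ x in K, f x := by
  have h := (mp_perm π).1.setIntegral_preimage_emb (mp_perm π).2 f K
  rwa [pre_perm hp] at h

/-- the integral over an orthant of an even function -/
theorem int_orth {n : ℕ} {K : Set (Fin n → ℝ)}
    (hs : ∀ s : Fin n → ℤˣ, ∀ x ∈ K, (fun i => ((s i : ℤ) : ℝ) * x i) ∈ K) (s : Fin n → ℤˣ)
    {f : (Fin n → ℝ) → ℝ} (hf : ∀ (s : Fin n → ℤˣ) (x : Fin n → ℝ), f (sgn s x) = f x) :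
    ∫ x in K ∩ orth s, f x = ∫ x in posPart K, f x := by
  have h := (Vale.Agent.P248.Orth.preserving_sgn s).setIntegral_preimage_emb (me_sgn s) f
    (K ∩ orth s)
  have h2 : sgn s ⁻¹' (K ∩ orth s) = posPart K := by
    rw [Set.preimage_inter, pre_sgn hs]
    ext x
    simp only [posPart, Set.mem_inter_iff, Set.mem_preimage, Set.mem_ofPred_eq, orth]
    refine and_congr_right fun _ => forall_congr' fun i => ?_
    have : ((s i : ℤ) : ℝ) * sgn s x i = x i :=
      congrFun (Vale.Agent.P248.Orth.sgn_invol s x) i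
    rw [this]
  rw [h2] at h
  rw [← h]
  simp only [hf]

theorem int_sum {n : ℕ} {K : Set (Fin n → ℝ)} (hc : IsCompact K)
    (hs : ∀ s : Fin n → ℤˣ, ∀ x ∈ K, (fun i => ((s i : ℤ) : ℝ) * x i) ∈ K)
    {f : (Fin n → ℝ) → ℝ} (hfc : Continuous f)
    (hf : ∀ (s : Fin n → ℤˣ) (x : Fin n → ℝ), f (sgn s x) = f x) :
    ∫ x in K, f x = 2 ^ n * ∫ x in posPart K, f x := by
  classical
  have hU : K = ⋃ s : Fin n → ℤˣ, K ∩ orth s := by
    ext x
    simp only [Set.mem_iUnion, Set.mem_inter_iff]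
    constructor
    · intro hx
      obtain ⟨s, h⟩ := Vale.Agent.P248.Orth.exists_mem_orth x
      exact ⟨s, hx, h⟩
    · rintro ⟨s, hx, _⟩
      exact hx
  have hint : IntegrableOn f (⋃ s : Fin n → ℤˣ, K ∩ orth s) volume := by
    rw [← hU]
    exact hfc.continuousOn.integrableOn_compact hc
  have h1 : ∫ x in ⋃ s : Fin n → ℤˣ, K ∩ orth s, f x =
      ∑' s : Fin n → ℤˣ, ∫ x in K ∩ orth s, f x := by
    refine integral_iUnion_ae ?_ ?_ hint
    · intro s
      exact (hc.measurableSet.inter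
        (Vale.Agent.P248.Orth.isClosed_orth s).measurableSet).nullMeasurableSet
    · intro s t hst
      refine measure_mono_null ?_ (Vale.Agent.P248.Orth.inter_null hst)
      rintro x ⟨⟨_, h1⟩, _, h2⟩
      exact ⟨h1, h2⟩
  rw [← hU, tsum_fintype] at h1
  rw [h1, Finset.sum_congr rfl fun s _ => int_orth hs s hf, Finset.sum_const, nsmul_eq_mul]
  congr 1
  rw [Finset.card_univ, Fintype.card_fun, Fintype.card_units_int, Fintype.card_fin]
  norm_num

end CovK

open CovK

/-- [Q6] CovK.lean: volume and covariance of a 1-symmetric body -/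
theorem vol_pos {n : ℕ} {K : Set (Fin n → ℝ)} (hc : IsCompact K)
    (hs : ∀ s : Fin n → ℤˣ, ∀ x ∈ K, (fun i => ((s i : ℤ) : ℝ) * x i) ∈ K) :
    volume.real K = 2 ^ n * volume.real (posPart K) := by
  have h := int_sum hc hs (f := fun _ => (1 : ℝ)) continuous_const (fun _ _ => rfl)
  simpa [Measure.real] using h

theorem cov_sym {n : ℕ} {K : Set (Fin (n + 1) → ℝ)} (hc : IsCompact K)
    (hs : ∀ s : Fin (n + 1) → ℤˣ, ∀ x ∈ K, (fun i => ((s i : ℤ) : ℝ) * x i) ∈ K)
    (hp : ∀ π : Equiv.Perm (Fin (n + 1)), ∀ x ∈ K, (x ∘ π) ∈ K) :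
    (cov K).det =
      ((∫ x in posPart K, x 0 ^ 2) / volume.real (posPart K)) ^ (n + 1) := by
  classical
  have hcen : ∀ i, centroid K i = 0 := by
    intro i
    have h := int_sgn hs (fun _ => -1) (fun x => x i)
    have h2 : ∀ x : Fin (n + 1) → ℝ,
        Vale.Agent.P248.sgn (fun _ => (-1 : ℤˣ)) x i = - x i := by
      intro x
      simp [Vale.Agent.P248.sgn]
    simp only [h2, integral_neg] at h
    have h3 : ∫ x in K, x i = 0 := by linarith
    rw [centroid, h3, zero_div]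
  have hoff : ∀ i j, i ≠ j → ∫ x in K, x i * x j = 0 := by
    intro i j hij
    have h := int_sgn hs (fun k => if k = i then -1 else 1) (fun x => x i * x j)
    have h2 : ∀ x : Fin (n + 1) → ℝ,
        Vale.Agent.P248.sgn (fun k => if k = i then (-1 : ℤˣ) else 1) x i *
          Vale.Agent.P248.sgn (fun k => if k = i then (-1 : ℤˣ) else 1) x j = - (x i * x j) := by
      intro x
      simp [Vale.Agent.P248.sgn, hij.symm]
    simp only [h2, integral_neg] at h
    linarith
  have hdiag : ∀ i, ∫ x in K, x i * x i = 2 ^ (n + 1) * ∫ x in posPart K, x 0 ^ 2 := by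
    intro i
    have h := int_perm hp (Equiv.swap 0 i) (fun x => x 0 ^ 2)
    have h2 : ∀ x : Fin (n + 1) → ℝ, (x ∘ (Equiv.swap 0 i)) 0 ^ 2 = x i * x i := by
      intro x
      simp [sq]
    simp only [h2] at h
    rw [h]
    refine int_sum hc hs (by fun_prop) ?_
    intro s x
    rcases Vale.Agent.P248.Orth.unit_cases (s 0) with h5 | h5 <;>
      simp [Vale.Agent.P248.sgn, h5]
  have hcov : cov K =
      Matrix.diagonal (fun _ => (∫ x in posPart K, x 0 ^ 2) / volume.real (posPart K)) := by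
    ext i j
    rw [cov]
    simp only [hcen, sub_zero]
    rw [vol_pos hc hs]
    by_cases hij : i = j
    · subst hij
      rw [hdiag, Matrix.diagonal_apply_eq, mul_div_mul_left _ _ (by positivity)]
    · rw [hoff i j hij, zero_div, Matrix.diagonal_apply_ne _ hij]
  rw [hcov, Matrix.det_diagonal, Finset.prod_const, Finset.card_univ, Fintype.card_fin]

end Vale.Agent.P254
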