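import Vale.Agent.P254.Core
import Vale.Agent.P254.Pos
import Vale.Agent.P254.CovK
import Vale.Agent.P254.Simp
import Vale.Agent.P254.Num

namespace Vale.Agent.P254

open MeasureTheory
open scoped ENNReal

namespace Mn

theorem second_real {m : ℕ} {D : Set (Fin (m + 1) → ℝ)} (h : AB D) :
    ((m : ℝ) + 3) * (∫ x in D, x 0 ^ 2) * volume.real D ≤
      2 * ((m : ℝ) + 2) * (∫⁻ x in D, ENNReal.ofReal (x 0)).toReal ^ 2 := by
  have h1 := second h
  have hM := Core.mom_fin h 1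
  simp only [pow_one] at hM
  have h2 := ENNReal.toReal_mono (ENNReal.mul_ne_top (by simp [ENNReal.mul_eq_top])
    (ENNReal.pow_ne_top hM)) h1
  have hS : ∫ x in D, x 0 ^ 2 = (∫⁻ x in D, ENNReal.ofReal (x 0) ^ 2).toReal := by
    rw [integral_eq_lintegral_of_nonneg_ae (Filter.Eventually.of_forall fun x => sq_nonneg _)
      ((continuous_apply 0).pow 2).aestronglyMeasurable]
    congr 1
    refine setLIntegral_congr_fun h.compact.measurableSet fun x hx => ?_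
    exact ENNReal.ofReal_pow (h.nonneg x hx 0) 2
  rw [hS]
  simp only [ENNReal.toReal_mul, ENNReal.toReal_pow] at h2
  have e1 : ((m : ℝ≥0∞) + 3).toReal = (m : ℝ) + 3 := by
    rw [ENNReal.toReal_add (by simp) (by simp)]
    simp
  have e2 : ((m : ℝ≥0∞) + 2).toReal = (m : ℝ) + 2 := by
    rw [ENNReal.toReal_add (by simp) (by simp)]
    simp
  rw [e1, e2] at h2
  simpa [Measure.real] using h2

theorem core_real {m : ℕ} {D : Set (Fin (m + 1) → ℝ)} (h : AB D) :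
    (2 * (∫⁻ x in D, ENNReal.ofReal (x 0)).toReal) ^ (m + 1) ≤ volume.real D ^ (m + 2) := by
  have h1 := core m h
  have h2 := ENNReal.toReal_mono (ENNReal.pow_ne_top (Core.vol_fin h)) h1
  simpa [Measure.real, ENNReal.toReal_mul, ENNReal.toReal_pow] using h2

/-- the real arithmetic -/
theorem arith {n : ℕ} (hn : 1 ≤ n) {V M S : ℝ} (hV : 0 < V) (hM : 0 ≤ M) (hS : 0 ≤ S)
    (h1 : (2 * M) ^ n ≤ V ^ (n + 1))
    (h2 : ((n : ℝ) + 2) * S * V ≤ 2 * ((n : ℝ) + 1) * M ^ 2) :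
    (S / V) ^ n / (2 ^ n * V) ^ 2 ≤ (((n : ℝ) + 1) / (8 * ((n : ℝ) + 2))) ^ n := by
  have hn2 : (0 : ℝ) < (n : ℝ) + 2 := by positivity
  have h3 : S / V ≤ 2 * ((n : ℝ) + 1) / ((n : ℝ) + 2) * (M / V) ^ 2 := by
    rw [div_le_iff₀ hV, div_mul_eq_mul_div, div_mul_eq_mul_div, le_div_iff₀ hn2, div_pow]
    have : 2 * ((n : ℝ) + 1) * (M ^ 2 / V ^ 2) * V = 2 * ((n : ℝ) + 1) * M ^ 2 / V := by
      field_simp
    rw [this, le_div_iff₀ hV]
    linarith
  have h4 : (M / V) ^ n ≤ V / 2 ^ n := by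
    rw [div_pow, div_le_div_iff₀ (by positivity) (by positivity)]
    calc M ^ n * 2 ^ n = (2 * M) ^ n := by rw [mul_pow]; ring
      _ ≤ V ^ (n + 1) := h1
      _ = V * V ^ n := by ring
  have h5 : (S / V) ^ n ≤
      (2 * ((n : ℝ) + 1) / ((n : ℝ) + 2)) ^ n * (V / 2 ^ n) ^ 2 := by
    calc (S / V) ^ n ≤ (2 * ((n : ℝ) + 1) / ((n : ℝ) + 2) * (M / V) ^ 2) ^ n :=
          pow_le_pow_left₀ (by positivity) h3 n
      _ = (2 * ((n : ℝ) + 1) / ((n : ℝ) + 2)) ^ n * ((M / V) ^ n) ^ 2 := by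
          rw [mul_pow, ← pow_mul, ← pow_mul, mul_comm 2 n]
      _ ≤ _ := by gcongr
  rw [div_le_iff₀ (by positivity)]
  refine h5.trans (le_of_eq ?_)
  rw [div_pow V, div_pow, div_pow, mul_pow, mul_pow, mul_pow]
  have h8 : (8 : ℝ) ^ n = 2 ^ n * 2 ^ n * 2 ^ n := by
    rw [← mul_pow, ← mul_pow]
    norm_num
  rw [h8]
  field_simp

theorem cmp {n : ℕ} (hn : 2 ≤ n) :
    (((n : ℝ) + 1) / (8 * ((n : ℝ) + 2))) ^ n <
      1 / (((n : ℝ) + 1) ^ (n + 1) * ((n : ℝ) + 2) ^ n) / (1 / (n.factorial : ℝ)) ^ 2 := by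
  have h1 : (((n : ℝ) + 1) ^ (2 * n + 1)) < 8 ^ n * (n.factorial : ℝ) ^ 2 := by
    exact num hn
  have hf : (0 : ℝ) < (n.factorial : ℝ) := by exact_mod_cast n.factorial_pos
  rw [div_pow, mul_pow, one_div_pow, div_div_eq_mul_div, div_one, one_div,
    inv_mul_eq_div, div_lt_div_iff₀ (by positivity) (by positivity)]
  have e1 : ((n : ℝ) + 1) ^ n * (((n : ℝ) + 1) ^ (n + 1) * ((n : ℝ) + 2) ^ n) =
      ((n : ℝ) + 1) ^ (2 * n + 1) * ((n : ℝ) + 2) ^ n := by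
    ring
  have e2 : (n.factorial : ℝ) ^ 2 * (8 ^ n * ((n : ℝ) + 2) ^ n) =
      8 ^ n * (n.factorial : ℝ) ^ 2 * ((n : ℝ) + 2) ^ n := by ring
  rw [e1, e2]
  exact mul_lt_mul_of_pos_right h1 (by positivity)

end Mn

/-- the theorem for 1-symmetric convex bodies -/
theorem main (n : ℕ) (hn : 2 ≤ n) {K : Set (Fin n → ℝ)} (hK : Convex ℝ K) (hc : IsCompact K)
    (h0 : (interior K).Nonempty)
    (hs : ∀ s : Fin n → ℤˣ, ∀ x ∈ K, (fun i => ((s i : ℤ) : ℝ) * x i) ∈ K)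
    (hp : ∀ π : Equiv.Perm (Fin n), ∀ x ∈ K, (x ∘ π) ∈ K) :
    isoConst K ^ 2 ≤ ((n : ℝ) + 1) / (8 * ((n : ℝ) + 2)) ∧
      isoConst K < isoConst (simplex n) := by
  obtain ⟨m, rfl⟩ : ∃ m, n = m + 1 := ⟨n - 1, by omega⟩
  have h : AB (posPart K) := ab_pos hK hc hs hp
  have hvol := vol_pos hc hs
  have hcov := cov_sym hc hs hp
  have hKpos : 0 < volume.real K := by
    rw [Measure.real, ENNReal.toReal_pos_iff]
    refine ⟨?_, hc.measure_lt_top⟩
    exact lt_of_lt_of_le (isOpen_interior.measure_pos volume h0) (measure_mono interior_subset)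
  have hV : 0 < volume.real (posPart K) := by
    rw [hvol] at hKpos
    exact pos_of_mul_pos_right hKpos (by positivity)
  set V := volume.real (posPart K) with hVdef
  set S := ∫ x in posPart K, x 0 ^ 2 with hSdef
  set M := (∫⁻ x in posPart K, ENNReal.ofReal (x 0)).toReal with hMdef
  have hM : 0 ≤ M := ENNReal.toReal_nonneg
  have hS : 0 ≤ S := integral_nonneg fun x => sq_nonneg _
  have hX := Mn.arith (n := m + 1) (by omega) hV hM hS (Mn.core_real h) (by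
    have := Mn.second_real h
    rw [← hVdef, ← hSdef, ← hMdef] at this
    push_cast
    convert this using 2 <;> ring)
  set X : ℝ := (S / V) ^ (m + 1) / (2 ^ (m + 1) * V) ^ 2 with hXdef
  have hX0 : 0 ≤ X := by positivity
  have hiso : isoConst K = X ^ (1 / (2 * ((m + 1 : ℕ) : ℝ))) := by
    rw [isoConst, hcov, hvol]
  have hcmp := Mn.cmp hn
  have hsimp : isoConst (simplex (m + 1)) =
      (1 / ((((m + 1 : ℕ) : ℝ) + 1) ^ (m + 1 + 1) * (((m + 1 : ℕ) : ℝ) + 2) ^ (m + 1)) /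
        (1 / ((m + 1).factorial : ℝ)) ^ 2) ^ (1 / (2 * ((m + 1 : ℕ) : ℝ))) := by
    rw [isoConst, simplex_cov, simplex_vol]
  constructor
  · rw [hiso, ← Real.rpow_natCast, ← Real.rpow_mul hX0]
    have e1 : 1 / (2 * ((m + 1 : ℕ) : ℝ)) * ((2 : ℕ) : ℝ) = (((m + 1 : ℕ) : ℝ))⁻¹ := by
      push_cast
      field_simp
    rw [e1]
    have h3 := Real.rpow_le_rpow hX0 hX (z := (((m + 1 : ℕ) : ℝ))⁻¹) (by positivity)
    rwa [Real.pow_rpow_inv_natCast (by positivity) (by omega)] at h3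
  · rw [hiso, hsimp]
    exact Real.rpow_lt_rpow hX0 (lt_of_le_of_lt hX hcmp) (by positivity)

end Vale.Agent.P254
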