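import Vale.Agent.P254.NPN
import Vale.Agent.P254.Lin
import Vale.Agent.P254.Pos
import Vale.Agent.P254.CovK
import Vale.Agent.P254.Simp
import Vale.Agent.P254.Num

/-!
P254: the tools for down-closed convex bodies without symmetry, and the reduction of the
isotropic constant of an unconditional body to the product of the first moments.
-/

namespace Vale.Agent.P254.NS

open MeasureTheory
open scoped ENNReal

theorem vol_fin {n : ℕ} {D : Set (Fin n → ℝ)} (h : AC D) : volume D ≠ ∞ :=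
  h.compact.measure_lt_top.ne

theorem A_fin {n : ℕ} {D : Set (Fin (n + 1) → ℝ)} (h : AC D) (t : ℝ) : A D t ≠ ∞ :=
  vol_fin (sec_ac h t)

theorem pn {n : ℕ} {D : Set (Fin (n + 1) → ℝ)} (h : AC D) (x y : ℝ) (hx : 0 ≤ x)
    (hxy : x ≤ y) : F D y * A D x ≤ F D x * A D y := by
  have h1 := sec_pn h hx hxy
  have h2 : ((n : ℝ≥0∞) + 1) * (F D y * A D x) ≤ ((n : ℝ≥0∞) + 1) * (F D x * A D y) :=
    le_trans le_add_self h1
  have h3 : ((n : ℝ≥0∞) + 1) ≠ 0 := by positivity
  have h4 : ((n : ℝ≥0∞) + 1) ≠ ∞ := by simp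
  exact (ENNReal.mul_le_mul_iff_right h3 h4).1 h2

theorem lin1_D {n : ℕ} {D : Set (Fin (n + 1) → ℝ)} (h : AC D) :
    2 * (∫⁻ x in D, ENNReal.ofReal (x 0)) * (∫⁻ t, A D t ^ 2) ≤ volume D ^ 3 := by
  rw [mom_int h, ← A_int h]
  refine lin1 (f := F D) (A_meas h) (fun t => rfl) (fun t ht => A_neg h ht)
    (fun x y hx hxy => A_anti h hx hxy) ?_ (fun x y hx hxy => pn h x y hx hxy)
  rw [A_int h]
  exact vol_fin h

theorem mom_fin {n : ℕ} {D : Set (Fin n → ℝ)} (h : AC D) (i : Fin n) (k : ℕ) :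
    ∫⁻ x in D, ENNReal.ofReal (x i) ^ k ≠ ∞ := by
  obtain ⟨R, hR⟩ := h.compact.isBounded.exists_norm_le
  have hb : ∀ x ∈ D, ENNReal.ofReal (x i) ^ k ≤ ENNReal.ofReal R ^ k := by
    intro x hx
    gcongr
    exact (le_abs_self _).trans ((norm_le_pi_norm x i).trans (hR x hx))
  have h1 : ∫⁻ x in D, ENNReal.ofReal (x i) ^ k ≤ ∫⁻ x in D, ENNReal.ofReal R ^ k :=
    setLIntegral_mono' h.compact.measurableSet hb
  rw [setLIntegral_const] at h1
  refine (lt_of_le_of_lt h1 ?_).ne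
  exact ENNReal.mul_lt_top (by simp) (vol_fin h).lt_top

theorem second {n : ℕ} {D : Set (Fin (n + 1) → ℝ)} (h : AC D) :
    ((n : ℝ≥0∞) + 3) * (∫⁻ x in D, ENNReal.ofReal (x 0) ^ 2) * volume D ≤
      2 * ((n : ℝ≥0∞) + 2) * (∫⁻ x in D, ENNReal.ofReal (x 0)) ^ 2 := by
  have h1 := lin2 (N := (n : ℝ≥0∞) + 1) (a := A D) (f := F D) (by positivity) (by simp)
    (A_meas h) (fun t => rfl) (fun t ht => A_neg h ht) (by rw [A_int h]; exact vol_fin h)
    (by rw [← mom2_int h]; exact mom_fin h 0 2) (fun x y hx hxy => sec_pn h hx hxy)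
  rw [A_int h, ← mom_int h, ← mom2_int h] at h1
  have e1 : (n : ℝ≥0∞) + 1 + 2 = (n : ℝ≥0∞) + 3 := by
    rw [add_assoc]
    norm_num
  have e2 : (n : ℝ≥0∞) + 1 + 1 = (n : ℝ≥0∞) + 2 := by
    rw [add_assoc]
    norm_num
  rw [e1, e2] at h1
  exact h1

theorem zero_case {D : Set (Fin (0 + 1) → ℝ)} (h : AC D) :
    (2 * ∫⁻ x in D, ENNReal.ofReal (x 0)) ≤ volume D ^ 2 := by
  have hA : ∀ t, A D t ^ 2 = A D t := by
    intro t
    rcases Set.eq_empty_or_nonempty (sec D t) with h1 | h1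
    · simp [A, h1]
    · have h2 : sec D t = Set.univ := Subsingleton.eq_univ_of_nonempty h1
      have h3 : (volume : Measure (Fin 0 → ℝ)) Set.univ = 1 := by
        rw [volume_pi, Measure.pi_univ]
        simp
      simp [A, h2, h3]
  have h1 := lin1_D h
  have h2 : ∫⁻ t, A D t ^ 2 = volume D := by
    rw [← A_int h]
    exact lintegral_congr hA
  rw [h2] at h1
  by_cases hV : volume D = 0
  · have : ∫⁻ x in D, ENNReal.ofReal (x 0) = 0 := by
      rw [Measure.restrict_eq_zero.2 hV]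
      simp
    rw [this]
    simp
  · have h3 : (2 * ∫⁻ x in D, ENNReal.ofReal (x 0)) * volume D ≤ volume D ^ 2 * volume D := by
      rw [← pow_succ]
      exact h1
    exact (ENNReal.mul_le_mul_iff_left hV (vol_fin h)).1 h3

/-- permuting the coordinates of a body -/
theorem ac_perm {n : ℕ} {D : Set (Fin n → ℝ)} (h : AC D) (π : Equiv.Perm (Fin n)) :
    AC ((fun x : Fin n → ℝ => x ∘ π) ⁻¹' D) := by
  have hcont : Continuous (fun x : Fin n → ℝ => x ∘ π) :=
    continuous_pi fun i => continuous_apply (π i)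
  refine ⟨?_, ?_, ?_, ?_⟩
  · have h1 : (fun x : Fin n → ℝ => x ∘ π) ⁻¹' D = (fun x : Fin n → ℝ => x ∘ π.symm) '' D := by
      ext x
      constructor
      · intro hx
        refine ⟨x ∘ π, hx, ?_⟩
        funext i
        simp
      · rintro ⟨y, hy, rfl⟩
        have : (y ∘ π.symm) ∘ π = y := by
          funext i
          simp
        change (y ∘ π.symm) ∘ π ∈ D
        rw [this]
        exact hy
    rw [h1]
    exact h.compact.image (continuous_pi fun i => continuous_apply (π.symm i))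
  · intro x hx y hy a b ha hb hab
    have h2 : (a • x + b • y) ∘ π = a • (x ∘ π) + b • (y ∘ π) := by
      funext i
      simp
    change (a • x + b • y) ∘ π ∈ D
    rw [h2]
    exact h.conv hx hy ha hb hab
  · intro x hx i
    have := h.nonneg _ hx (π.symm i)
    simpa using this
  · intro x hx y hy0 hyx
    exact h.down _ hx _ (fun i => hy0 (π i)) (fun i => hyx (π i))

theorem int_perm {n : ℕ} {D : Set (Fin n → ℝ)} (h : AC D) (π : Equiv.Perm (Fin n))
    {g : (Fin n → ℝ) → ℝ≥0∞} (hg : Measurable g) :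
    ∫⁻ x in (fun x : Fin n → ℝ => x ∘ π) ⁻¹' D, g (x ∘ π) = ∫⁻ x in D, g x :=
  (Sec.mp_perm π).setLIntegral_comp_preimage h.compact.measurableSet hg

theorem vol_perm {n : ℕ} {D : Set (Fin n → ℝ)} (h : AC D) (π : Equiv.Perm (Fin n)) :
    volume ((fun x : Fin n → ℝ => x ∘ π) ⁻¹' D) = volume D := by
  have := int_perm h π (g := fun _ => 1) measurable_const
  simpa using this

theorem second_i {n : ℕ} {D : Set (Fin (n + 1) → ℝ)} (h : AC D) (i : Fin (n + 1)) :
    ((n : ℝ≥0∞) + 3) * (∫⁻ x in D, ENNReal.ofReal (x i) ^ 2) * volume D ≤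
      2 * ((n : ℝ≥0∞) + 2) * (∫⁻ x in D, ENNReal.ofReal (x i)) ^ 2 := by
  have h1 := second (ac_perm h (Equiv.swap 0 i))
  have h2 := int_perm h (Equiv.swap 0 i) (g := fun x => ENNReal.ofReal (x i) ^ 2)
    ((measurable_pi_apply i).ennreal_ofReal.pow_const 2)
  have h3 := int_perm h (Equiv.swap 0 i) (g := fun x => ENNReal.ofReal (x i))
    (measurable_pi_apply i).ennreal_ofReal
  simp only [Function.comp_apply, Equiv.swap_apply_right] at h2 h3
  rw [h2, h3, vol_perm h] at h1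
  exact h1

theorem second_real {m : ℕ} {D : Set (Fin (m + 1) → ℝ)} (h : AC D) (i : Fin (m + 1)) :
    ((m : ℝ) + 3) * (∫ x in D, x i ^ 2) * volume.real D ≤
      2 * ((m : ℝ) + 2) * (∫⁻ x in D, ENNReal.ofReal (x i)).toReal ^ 2 := by
  have h1 := second_i h i
  have hM := mom_fin h i 1
  simp only [pow_one] at hM
  have h2 := ENNReal.toReal_mono (ENNReal.mul_ne_top (by simp [ENNReal.mul_eq_top])
    (ENNReal.pow_ne_top hM)) h1
  have hS : ∫ x in D, x i ^ 2 = (∫⁻ x in D, ENNReal.ofReal (x i) ^ 2).toReal := by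
    rw [integral_eq_lintegral_of_nonneg_ae (Filter.Eventually.of_forall fun x => sq_nonneg _)
      ((continuous_apply i).pow 2).aestronglyMeasurable]
    congr 1
    refine setLIntegral_congr_fun h.compact.measurableSet fun x hx => ?_
    exact ENNReal.ofReal_pow (h.nonneg x hx i) 2
  rw [hS]
  simp only [ENNReal.toReal_mul, ENNReal.toReal_pow] at h2
  have e1 : ((m : ℝ≥0∞) + 3).toReal = (m : ℝ) + 3 := by
    rw [ENNReal.toReal_add (by simp) (by simp)]
    simp
  have e2 : ((m : ℝ≥0∞) + 2).toReal = (m : ℝ) + 2 := by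
    rw [ENNReal.toReal_add (by simp) (by simp)]
    simp
  rw [e1, e2] at h2
  simpa [Measure.real] using h2

/-- the real arithmetic -/
theorem arith {n : ℕ} {V : ℝ} {M S : Fin n → ℝ} (hV : 0 < V) (hM : ∀ i, 0 ≤ M i)
    (hS : ∀ i, 0 ≤ S i) (h1 : ∏ i, (2 * M i) ≤ V ^ (n + 1))
    (h2 : ∀ i, ((n : ℝ) + 2) * S i * V ≤ 2 * ((n : ℝ) + 1) * M i ^ 2) :
    (∏ i, S i / V) / (2 ^ n * V) ^ 2 ≤ (((n : ℝ) + 1) / (8 * ((n : ℝ) + 2))) ^ n := by
  have hn2 : (0 : ℝ) < (n : ℝ) + 2 := by positivity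
  have h3 : ∀ i, S i / V ≤ 2 * ((n : ℝ) + 1) / ((n : ℝ) + 2) * (M i / V) ^ 2 := by
    intro i
    rw [div_le_iff₀ hV, div_mul_eq_mul_div, div_mul_eq_mul_div, le_div_iff₀ hn2, div_pow]
    have : 2 * ((n : ℝ) + 1) * (M i ^ 2 / V ^ 2) * V = 2 * ((n : ℝ) + 1) * M i ^ 2 / V := by
      field_simp
    rw [this, le_div_iff₀ hV]
    have := h2 i
    linarith
  have h4 : ∏ i, (M i / V) ≤ V / 2 ^ n := by
    rw [Finset.prod_div_distrib, Finset.prod_const, Finset.card_univ, Fintype.card_fin,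
      div_le_div_iff₀ (by positivity) (by positivity)]
    calc (∏ i, M i) * 2 ^ n = ∏ i, (2 * M i) := by
          rw [Finset.prod_mul_distrib, Finset.prod_const, Finset.card_univ, Fintype.card_fin]
          ring
      _ ≤ V ^ (n + 1) := h1
      _ = V * V ^ n := by ring
  have h40 : 0 ≤ ∏ i, (M i / V) := Finset.prod_nonneg fun i _ => div_nonneg (hM i) hV.le
  have h5 : ∏ i, (S i / V) ≤
      (2 * ((n : ℝ) + 1) / ((n : ℝ) + 2)) ^ n * (V / 2 ^ n) ^ 2 := by
    calc ∏ i, (S i / V) ≤ ∏ i, (2 * ((n : ℝ) + 1) / ((n : ℝ) + 2) * (M i / V) ^ 2) :=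
          Finset.prod_le_prod (fun i _ => div_nonneg (hS i) hV.le) (fun i _ => h3 i)
      _ = (2 * ((n : ℝ) + 1) / ((n : ℝ) + 2)) ^ n * (∏ i, (M i / V)) ^ 2 := by
          rw [Finset.prod_mul_distrib, Finset.prod_const, Finset.card_univ, Fintype.card_fin,
            Finset.prod_pow]
      _ ≤ _ := by gcongr
  rw [div_le_iff₀ (by positivity)]
  refine h5.trans (le_of_eq ?_)
  rw [div_pow V, div_pow, div_pow, mul_pow, mul_pow, mul_pow]
  have h8 : (8 : ℝ) ^ n = 2 ^ n * 2 ^ n * 2 ^ n := by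
    rw [← mul_pow, ← mul_pow]
    norm_num
  rw [h8]
  field_simp

theorem cmp {n : ℕ} (hn : 2 ≤ n) :
    (((n : ℝ) + 1) / (8 * ((n : ℝ) + 2))) ^ n <
      1 / (((n : ℝ) + 1) ^ (n + 1) * ((n : ℝ) + 2) ^ n) / (1 / (n.factorial : ℝ)) ^ 2 := by
  have h1 : (((n : ℝ) + 1) ^ (2 * n + 1)) < 8 ^ n * (n.factorial : ℝ) ^ 2 := by
    exact num hn
  have hf : (0 : ℝ) < (n.factorial : ℝ) := by exact_mod_cast n.factorial_pos
  rw [div_pow, mul_pow, one_div_pow, div_div_eq_mul_div, div_one, one_div,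
    inv_mul_eq_div, div_lt_div_iff₀ (by positivity) (by positivity)]
  have e1 : ((n : ℝ) + 1) ^ n * (((n : ℝ) + 1) ^ (n + 1) * ((n : ℝ) + 2) ^ n) =
      ((n : ℝ) + 1) ^ (2 * n + 1) * ((n : ℝ) + 2) ^ n := by
    ring
  have e2 : (n.factorial : ℝ) ^ 2 * (8 ^ n * ((n : ℝ) + 2) ^ n) =
      8 ^ n * (n.factorial : ℝ) ^ 2 * ((n : ℝ) + 2) ^ n := by ring
  rw [e1, e2]
  exact mul_lt_mul_of_pos_right h1 (by positivity)

theorem ac_pos {n : ℕ} {K : Set (Fin n → ℝ)} (hK : Convex ℝ K) (hc : IsCompact K)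
    (hs : ∀ s : Fin n → ℤˣ, ∀ x ∈ K, (fun i => ((s i : ℤ) : ℝ) * x i) ∈ K) :
    AC (posPart K) := by
  classical
  have hflip : ∀ x ∈ K, ∀ j, Function.update x j (-x j) ∈ K := by
    intro x hx j
    have h1 := hs (Function.update (fun _ => (1 : ℤˣ)) j (-1)) x hx
    have e : (fun i => (((Function.update (fun _ => (1 : ℤˣ)) j (-1) : Fin n → ℤˣ) i : ℤ) : ℝ) *
        x i) = Function.update x j (-x j) := by
      funext i
      by_cases hi : i = j
      · subst hi
        simp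
      · simp [Function.update_of_ne hi]
    rwa [e] at h1
  have hcl : IsClosed {x : Fin n → ℝ | ∀ i, 0 ≤ x i} := by
    rw [Set.ofPred_forall]
    exact isClosed_iInter fun i => isClosed_le continuous_const (continuous_apply i)
  have hcv : Convex ℝ {x : Fin n → ℝ | ∀ i, 0 ≤ x i} := by
    intro x hx y hy a b ha hb _ i
    exact add_nonneg (mul_nonneg ha (hx i)) (mul_nonneg hb (hy i))
  refine ⟨hc.inter_right hcl, hK.inter hcv, fun x hx => hx.2, ?_⟩
  intro x hx y hy0 hyx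
  refine ⟨Pos.solid hK hflip hx.1 fun i => ?_, hy0⟩
  rw [abs_of_nonneg (hy0 i), abs_of_nonneg (hx.2 i)]
  exact hyx i

theorem cov_unc {n : ℕ} {K : Set (Fin n → ℝ)} (hc : IsCompact K)
    (hs : ∀ s : Fin n → ℤˣ, ∀ x ∈ K, (fun i => ((s i : ℤ) : ℝ) * x i) ∈ K) :
    (cov K).det =
      ∏ i, ((∫ x in posPart K, x i ^ 2) / volume.real (posPart K)) := by
  classical
  have hcen : ∀ i, centroid K i = 0 := by
    intro i
    have h := CovK.int_sgn hs (fun _ => -1) (fun x => x i)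
    have h2 : ∀ x : Fin n → ℝ,
        Vale.Agent.P248.sgn (fun _ => (-1 : ℤˣ)) x i = - x i := by
      intro x
      simp [Vale.Agent.P248.sgn]
    simp only [h2, integral_neg] at h
    have h3 : ∫ x in K, x i = 0 := by linarith
    rw [centroid, h3, zero_div]
  have hoff : ∀ i j, i ≠ j → ∫ x in K, x i * x j = 0 := by
    intro i j hij
    have h := CovK.int_sgn hs (fun k => if k = i then -1 else 1) (fun x => x i * x j)
    have h2 : ∀ x : Fin n → ℝ,
        Vale.Agent.P248.sgn (fun k => if k = i then (-1 : ℤˣ) else 1) x i *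
          Vale.Agent.P248.sgn (fun k => if k = i then (-1 : ℤˣ) else 1) x j = - (x i * x j) := by
      intro x
      simp [Vale.Agent.P248.sgn, hij.symm]
    simp only [h2, integral_neg] at h
    linarith
  have hdiag : ∀ i, ∫ x in K, x i * x i = 2 ^ n * ∫ x in posPart K, x i ^ 2 := by
    intro i
    have h2 : ∀ x : Fin n → ℝ, x i * x i = x i ^ 2 := fun x => (sq _).symm
    simp only [h2]
    refine CovK.int_sum hc hs (by fun_prop) ?_
    intro s x
    rcases Vale.Agent.P248.Orth.unit_cases (s i) with h5 | h5 <;>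
      simp [Vale.Agent.P248.sgn, h5]
  have hcov : cov K =
      Matrix.diagonal (fun i => (∫ x in posPart K, x i ^ 2) / volume.real (posPart K)) := by
    ext i j
    rw [cov]
    simp only [hcen, sub_zero]
    rw [vol_pos hc hs]
    by_cases hij : i = j
    · subst hij
      rw [hdiag, Matrix.diagonal_apply_eq, mul_div_mul_left _ _ (by positivity)]
    · rw [hoff i j hij, zero_div, Matrix.diagonal_apply_ne _ hij]
  rw [hcov, Matrix.det_diagonal]

/-- reduction: an unconditional convex body whose positive part satisfies the first moment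
inequality satisfies the strong isotropic constant conjecture -/
theorem main_of_L1 (n : ℕ) (hn : 2 ≤ n) {K : Set (Fin n → ℝ)} (hK : Convex ℝ K)
    (hc : IsCompact K) (h0 : (interior K).Nonempty)
    (hs : ∀ s : Fin n → ℤˣ, ∀ x ∈ K, (fun i => ((s i : ℤ) : ℝ) * x i) ∈ K)
    (hL1 : ∏ i, (2 * ∫⁻ x in posPart K, ENNReal.ofReal (x i)) ≤ volume (posPart K) ^ (n + 1)) :
    isoConst K ^ 2 ≤ ((n : ℝ) + 1) / (8 * ((n : ℝ) + 2)) ∧
      isoConst K < isoConst (simplex n) := by
  obtain ⟨m, rfl⟩ : ∃ m, n = m + 1 := ⟨n - 1, by omega⟩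
  have h : AC (posPart K) := ac_pos hK hc hs
  have hvol := vol_pos hc hs
  have hcov := cov_unc hc hs
  have hKpos : 0 < volume.real K := by
    rw [Measure.real, ENNReal.toReal_pos_iff]
    refine ⟨?_, hc.measure_lt_top⟩
    exact lt_of_lt_of_le (isOpen_interior.measure_pos volume h0) (measure_mono interior_subset)
  have hV : 0 < volume.real (posPart K) := by
    rw [hvol] at hKpos
    exact pos_of_mul_pos_right hKpos (by positivity)
  have hcore : ∏ i, (2 * (∫⁻ x in posPart K, ENNReal.ofReal (x i)).toReal) ≤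
      volume.real (posPart K) ^ (m + 1 + 1) := by
    have h2 := ENNReal.toReal_mono (ENNReal.pow_ne_top (vol_fin h)) hL1
    rw [ENNReal.toReal_prod] at h2
    simpa [Measure.real, ENNReal.toReal_mul, ENNReal.toReal_pow] using h2
  have hX := arith (n := m + 1) (S := fun i => ∫ x in posPart K, x i ^ 2)
    (M := fun i => (∫⁻ x in posPart K, ENNReal.ofReal (x i)).toReal) hV
    (fun i => ENNReal.toReal_nonneg) (fun i => integral_nonneg fun x => sq_nonneg _) hcore
    (by
      intro i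
      have := second_real h i
      push_cast
      convert this using 2 <;> ring)
  set X : ℝ := (∏ i, (∫ x in posPart K, x i ^ 2) / volume.real (posPart K)) /
    (2 ^ (m + 1) * volume.real (posPart K)) ^ 2 with hXdef
  have hX0 : 0 ≤ X := by
    refine div_nonneg (Finset.prod_nonneg fun i _ => div_nonneg ?_ hV.le) (by positivity)
    exact integral_nonneg fun x => sq_nonneg _
  have hiso : isoConst K = X ^ (1 / (2 * ((m + 1 : ℕ) : ℝ))) := by
    rw [isoConst, hcov, hvol]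
  have hcmp := cmp hn
  have hsimp : isoConst (simplex (m + 1)) =
      (1 / ((((m + 1 : ℕ) : ℝ) + 1) ^ (m + 1 + 1) * (((m + 1 : ℕ) : ℝ) + 2) ^ (m + 1)) /
        (1 / ((m + 1).factorial : ℝ)) ^ 2) ^ (1 / (2 * ((m + 1 : ℕ) : ℝ))) := by
    rw [isoConst, simplex_cov, simplex_vol]
  constructor
  · rw [hiso, ← Real.rpow_natCast, ← Real.rpow_mul hX0]
    have e1 : 1 / (2 * ((m + 1 : ℕ) : ℝ)) * ((2 : ℕ) : ℝ) = (((m + 1 : ℕ) : ℝ))⁻¹ := by
      push_cast
      field_simp
    rw [e1]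
    have h3 := Real.rpow_le_rpow hX0 hX (z := (((m + 1 : ℕ) : ℝ))⁻¹) (by positivity)
    rwa [Real.pow_rpow_inv_natCast (by positivity) (by omega)] at h3
  · rw [hiso, hsimp]
    exact Real.rpow_lt_rpow hX0 (lt_of_le_of_lt hX hcmp) (by positivity)

end Vale.Agent.P254.NS
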